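import Crest.Agent.X262.Num64.Dsc
import Crest.Agent.X262.Vb.Ax0

/-!
# Row 262, road B, ENDS (helper64), part 2: the number of the swept family is positive

* `count`      : the dimension count on a component;
* `term`       : the contribution of a component of good reduction is a natural number;
* `numStmt_of` : `RbStmt → PosStmt → GoodStmt → TermStmt → ExStmt → NumStmt`.
-/

set_option autoImplicit false
set_option linter.unusedSectionVars false

noncomputable section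

namespace Crest.Agent.X262.Num64

open Crest.Agent.X277 Crest.Agent.X277.BD Crest.Agent.X277.Pst Crest.Agent.X277.BD.Cyc Polynomial
open Crest.Agent.X262.Hb Crest.Agent.X262.Vb Crest.Agent.X262.Ends
open Crest.Agent.X262.Geo (od od_eq_zero od_nonneg essFT_Rf dim_Rf')
open Crest.Agent.X262.Tree87 (GoodS)
open Crest.Agent.R273.FG_259 (essFiniteType_of_le)

/-- the dimension count on a component -/
theorem count {R : Type} [Field R] [Algebra ℂ R] [Algebra.EssFiniteType ℂ R]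
    (F : IntermediateField ℂ R) [CharZero F] [Algebra.EssFiniteType ℂ F]
    [Algebra.EssFiniteType F R] {P : Type} [Fintype P] {U : Submodule F (P → F)} {u : P → R}
    (hu : u ∈ mapS (IsScalarTower.toAlgHom ℂ F R) U) (h0 : u ≠ 0) {n : ℕ} (h1 : dim ℂ F ≤ n)
    (h2 : Module.finrank F U + n ≤ dim ℂ R + 1) :
    ∃ r, Module.finrank F U = r + 1 ∧ r + dim ℂ F ≤ dim ℂ R ∧
      (dim ℂ R ≤ dim ℂ (F ⊔ qf ℂ u : IntermediateField ℂ R) →
        dim ℂ F = n ∧ 0 < bnum (List.replicate r (mxf F u))) := by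
  have h3 := dim_qf_le hu h0
  obtain ⟨r, hr⟩ : ∃ r, Module.finrank F U = r + 1 := ⟨Module.finrank F U - 1, by omega⟩
  refine ⟨r, hr, by omega, fun h4 => ?_⟩
  have := essFiniteType_of_le (qf F u)
  have := essFiniteType_of_le (F ⊔ qf ℂ u : IntermediateField ℂ R)
  have : Algebra.EssFiniteType ℂ (qf F u) := Algebra.EssFiniteType.comp ℂ F _
  have : Algebra.EssFiniteType (qf F u) R := Algebra.EssFiniteType.of_comp F _ _
  have : CharZero (qf F u) := algebraRat.charZero _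
  have h5 : F ⊔ qf ℂ u ≤ (qf F u).restrictScalars ℂ :=
    sup_le (fun x hx => (qf F u).algebraMap_mem ⟨x, hx⟩) (IntermediateField.adjoin_le_iff.2 (by
      rintro _ ⟨i, j, rfl⟩
      exact div_mem_qf (k := F) u i j))
  let α : (F ⊔ qf ℂ u : IntermediateField ℂ R) →ₐ[ℂ] qf F u :=
    { toFun := fun x => ⟨x, h5 x.2⟩
      map_one' := rfl
      map_mul' := fun _ _ => rfl
      map_zero' := rfl
      map_add' := fun _ _ => rfl
      commutes' := fun _ => rfl }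
  have h6 := dim_le α
  have h7 := dim_tow ℂ F (qf F u)
  have h8 := dim_tow ℂ F R
  have h9 := dim_tow F (qf F u) R
  have h10 : Algebra.IsAlgebraic (qf F u) R := trdeg_eq_zero_iff.1 (by
    rw [trdeg_eq_dim, show dim (qf F u) R = 0 by omega, Nat.cast_zero])
  refine ⟨by omega, bnum_pos (by rw [List.length_replicate]; omega) fun x hx => ?_⟩
  rw [List.eq_of_mem_replicate hx]
  exact ⟨(va_mxf h10).nef, (va_mxf h10).big⟩

variable {J : Type} [Fintype J] [DecidableEq J] {io : J → Type} [∀ j, Fintype (io j)]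
  [∀ j, DecidableEq (io j)] {A : Type} [Fintype A] {K L I M : Type} [Field K] [Algebra ℂ K]
  [Algebra.EssFiniteType ℂ K] [Field L] [Algebra ℂ L] [Algebra.EssFiniteType ℂ L] [Fintype I]
  [Fintype M] {B : Th} {T : Tgt io A} {d ν : J → ℕ} {j₁ : J} {c N : ℕ} {S : Syz T}
  {f : (j : J) → io j → K[X]} {η : Dat io d I L} {m : M → I} {a₁ a₂ a₃ : M}

theorem mcls_lin (hB : B.Ax) (q₀ : M) : MCls B T (lin B ν j₁ q₀) where
  scl E _ _ _ y c h1 h2 h3 := by
    simp only [lin, fun j q => (cls_hc (T := T) hB j).scl E (y q) (c q) (h1 q) (h2 q) (h3 q)]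
  nat K E _ _ _ _ _ _ p y h1 h2 := by
    simp only [lin, map_mul, map_prod, map_pow,
      fun j q => (cls_hc (T := T) hB j).nat K E p (y q) (h1 q) (h2 q)]

/-- the three marks are rational -/
theorem exists_marks (hM : Fintype.card M = 3) (h₁ : η.x (m a₁) = none) (h₂ : η.x (m a₂) = some 0)
    (h₃ : η.x (m a₃) = some 1) {E : Type} [Field E] [Algebra ℂ E] (p : Pl ℂ L ℂ E) (F : Type)
    [Field F] [Algebra F E] : ∃ x : M → Option F, x a₁ = none ∧ x a₂ = some 0 ∧ x a₃ = some 1 ∧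
      ∀ q, rx p (η.x (m q)) = (x q).map (algebraMap F E) := by
  classical
  have h12 : a₁ ≠ a₂ := by rintro rfl; simp [h₁] at h₂
  have h13 : a₁ ≠ a₃ := by rintro rfl; simp [h₁] at h₃
  have h23 : a₂ ≠ a₃ := by rintro rfl; simp [h₂] at h₃
  have h : ({a₁, a₂, a₃} : Finset M) = Finset.univ := Finset.eq_univ_of_card _
    (hM ▸ Finset.card_eq_three.2 ⟨_, _, _, h12, h13, h23, rfl⟩)
  refine ⟨fun q => if q = a₁ then none else if q = a₂ then some 0 else some 1, by simp,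
    by simp [h12.symm], by simp [h13.symm, h23.symm], fun q => ?_⟩
  have hq := h ▸ Finset.mem_univ q
  simp only [Finset.mem_insert, Finset.mem_singleton] at hq
  rcases hq with rfl | rfl | rfl
  · simp [h₁, rx]
  · simp [h₂, rx, h12.symm]
  · simp [h₃, rx, h13.symm, h23.symm]

/-- **the contribution of a component of good reduction** -/
theorem term (hR : RbStmt) (hP : PosStmt) (hT : TermStmt) (hB : B.Ax) (hS : GoodS S c d)
    (hN : Tree87.Big S N) (hL : Line T d ν j₁ f) (hk : Ends.Rk T d (∑ j, ν j) f) (q₀ : M)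
    (hη : η.NrmUp N) (hM : Fintype.card M = 3) (h₁ : η.x (m a₁) = none)
    (h₂ : η.x (m a₂) = some 0) (h₃ : η.x (m a₃) = some 1) (hd : dim ℂ L = mdim io d 3)
    {W : RZ ℂ L} (hW : Dvs W) {s : J → L} {g : (j : J) → io j → (Rf W)[X]}
    (hg : GR (plV W) η.f s g) (hm : Mb d f g) {τ : L}
    (hτ : ∀ y, τ * eqc T d (scf s η.f) y ∈ W.1) {u : Cx T d → Rf W}
    (hu : ∀ y, u y = (plV W).r (τ * eqc T d (scf s η.f) y)) (h0 : u ≠ 0) :
    ∃ n : ℕ, B.itg (Rf W) (trm B T η.cfg m (lin B ν j₁ q₀) W) = n ∧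
      (dim ℂ (Rf W) ≤ dim ℂ (cfl g ⊔ qf ℂ u : IntermediateField ℂ (Rf W)) → n ≠ 0) := by
  have := essFT_Rf hW
  have := essFiniteType_of_le (cfl g)
  have : Algebra.EssFiniteType (cfl g) (Rf W) := Algebra.EssFiniteType.of_comp ℂ _ _
  have : CharZero (cfl g) := algebraRat.charZero _
  obtain ⟨g₀, e, hm₀⟩ := mb_desc hL hg.one hm
  obtain ⟨h4, h5, h6, h7⟩ := hR T c d ν j₁ f S hS hL hk _ g₀ hm₀
  have h8 := dim_of_top (cfl_eq_top e)
  obtain ⟨x, x₁, x₂, x₃, hx⟩ := exists_marks hM h₁ h₂ h₃ (plV W) (cfl g)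
  obtain ⟨h9, h10⟩ := hT B hB T c d S N hS hN η m hη W hW g₀ s x h4 h5 (e.symm ▸ hg) hx τ hτ u hu h0
  obtain ⟨r, hr, h11, h12⟩ := count (cfl g) h9 h0 (h8 ▸ h6) (by rw [← dim_Rf' hW, hd]; omega)
  obtain ⟨h13, h14⟩ := hP B hB (io := io) ν j₁ q₀ (cfl g)
  obtain ⟨n, hn⟩ := h13 fun q => pt d g₀ (x q)
  obtain ⟨b, hb⟩ := Int.eq_ofNat_of_zero_le (bnum_nonneg (l := List.replicate r (mxf (cfl g) u))
    fun x hx => List.eq_of_mem_replicate hx ▸ (free_mxf u).nef)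
  refine ⟨b * n, by rw [h10 _ r (mcls_lin hB q₀) hr h11, hn, hb]; simp, fun h => ?_⟩
  obtain ⟨h15, h16⟩ := h12 h
  have h17 := h14 T d f hL g₀ x a₁ a₂ a₃ hm₀ hM x₁ x₂ x₃ h15 h8
  rw [hn] at h17
  rw [hb] at h16
  exact mul_ne_zero (by omega) (by exact_mod_cast h17)

/-- every component contributes a natural number -/
theorem term_nat (hR : RbStmt) (hP : PosStmt) (hG : GoodStmt) (hT : TermStmt) (hB : B.Ax)
    (hS : GoodS S c d) (hN : Tree87.Big S N) (hL : Line T d ν j₁ f)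
    (hk : Ends.Rk T d (∑ j, ν j) f) (q₀ : M) (hη : η.NrmUp N) (hM : Fintype.card M = 3)
    (h₁ : η.x (m a₁) = none) (h₂ : η.x (m a₂) = some 0) (h₃ : η.x (m a₃) = some 1)
    (hd : dim ℂ L = mdim io d 3) (W : RZ ℂ L) (hW : Dvs W) : ∃ n : ℕ,
      (od W (η.cfg.dv T) : ℂ) * B.itg (Rf W) (trm B T η.cfg m (lin B ν j₁ q₀) W) = n := by
  by_cases h4 : (η.cfg.dv T).val W = 1
  · exact ⟨0, by simp [(od_eq_zero hW).2 h4]⟩
  by_cases h5 : (lin B ν j₁ q₀ (Rf W) fun q => (η.cfg.red (plV W)).y (m q)) = 0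
  · exact ⟨0, by simp [trm, h5]⟩
  obtain ⟨s, g, hg, hm⟩ := hG B hB T d ν j₁ f hL hN.k_le η m q₀ a₁ a₂ a₃ hη hM h₁ h₂ h₃ (LP.at W)
    (on_at η.cfg_nz h4) h5
  obtain ⟨y, h6, h7⟩ := Tree87.exists_prim W fun h0 =>
    h4 (by rw [Cfg.dv_of_on T ((on_iff_eqc hη hN.k_le (GR.ne hg)).2 h0), val_zero])
  obtain ⟨n, hn, -⟩ := term hR hP hT hB hS hN hL hk q₀ hη hM h₁ h₂ h₃ hd hW hg hm h7
    (fun _ => rfl) fun h0 => by
      have h8 := congrFun h0 y
      rw [inv_mul_cancel₀ h6, Pl.r_one] at h8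
      exact one_ne_zero h8
  obtain ⟨o, ho⟩ := Int.eq_ofNat_of_zero_le (od_nonneg (V := W) (Cfg.dv_nonneg T η.cfg_nz))
  exact ⟨o * n, by rw [hn, ho]; simp⟩

/-- **the number of the swept family is positive** -/
theorem numStmt_of (hR : RbStmt) (hP : PosStmt) (hG : GoodStmt) (hT : TermStmt) (hE : ExStmt) :
    NumStmt := by
  intro B hB J _ _ io _ _ A _ T c d ν j₁ K _ _ _ f hg hL hk M _ q₀ hM
  obtain ⟨N₀, hv⟩ := hg.vir_eq hB
  obtain ⟨hF, S, hS⟩ := hg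
  obtain ⟨N₁, hN₁⟩ := Tree87.exists_big S
  obtain ⟨K', _, _, _, ξ', hξ'⟩ := Vb37.exists_univ' (M := M) (Vb37.cp_cond hL.cp) hM.ge
  obtain ⟨L, K₀, _, _, _, _, _, _, θ, n, ξ, η, hθ, hξ, e, ho, hη⟩ :=
    HasUniv.exists ⟨K', _, _, ξ', hξ'⟩ (max N₀ N₁)
  have hN := hN₁ _ (le_max_right N₀ N₁)
  have h1 := hv _ (mcls_lin (T := T) (ν := ν) (j₁ := j₁) hB q₀) ho
    (Vb10.nrmUp_mono hη (le_max_left _ _))
  have hd : dim ℂ L = mdim io d 3 := by
    have h := hξ.2.2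
    rw [trdeg_eq_dim, hM] at h
    rw [(deg_pos_iff θ).1 hθ]
    exact_mod_cast h
  obtain ⟨a₁, a₂, a₃, x₁, x₂, x₃⟩ := hξ.1
  have hx : ∀ q, η.x (Sum.inl q) = (ξ.x q).map θ := congrFun (congrArg Dat.x e)
  have h₁ : η.x (Sum.inl a₁) = none := by simp [hx, x₁]
  have h₂ : η.x (Sum.inl a₂) = some 0 := by simp [hx, x₂]
  have h₃ : η.x (Sum.inl a₃) = some 1 := by simp [hx, x₃]
  obtain ⟨W, s, g, τ, u, hW, h2, h3, h4, h5, h6, h7⟩ := hE T d ν j₁ f hF hL ξ θ hξ hM hθ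
  rw [← show η.f = (ξ.map θ).f from congrArg Dat.f e] at h2 h4 h5
  obtain ⟨n₀, h8, h9⟩ := term hR hP hT hB hS hN hL hk q₀ hη hM h₁ h₂ h₃ hd hW h2 h3 h4 h5 h6
  obtain ⟨h10, h11, -⟩ := hR T c d ν j₁ f S hS hL hk _ g h3
  have h12 : od W (η.cfg.dv T) ≠ 0 := (od_eq_zero hW).not.2
    ((Cfg.on_red_iff T (lnr_plV W) η.cfg_nz fun h => h6 (_root_.funext fun y => by
      rw [h5, (on_iff_eqc hη hN.k_le (GR.ne (p := plV W) h2)).1 h]
      simp)).1 (on_red (p := LP.at W) h2 h10 h11))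
  choose! k hk using term_nat hR hP hG hT hB hS hN hL hk q₀ hη hM h₁ h₂ h₃ hd
  have h13 := fs_vir hB (mcls_lin (T := T) (ν := ν) (j₁ := j₁) hB q₀) η.cfg_nz Sum.inl
  have h14 : (od W (η.cfg.dv T) : ℂ) *
      B.itg (Rf W) (trm B T η.cfg Sum.inl (lin B ν j₁ q₀) W) ≠ 0 :=
    mul_ne_zero (by exact_mod_cast h12) (by rw [h8]; exact_mod_cast h9 h7)
  have h15 : vir B T η.cfg Sum.inl (lin B ν j₁ q₀) = (∑ V ∈ h13.toFinset, k V : ℕ) := by
    rw [Nat.cast_sum]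
    exact (Sym65.sm_sum (fun V hV => (h13.mem_toFinset.1 hV).1) fun V h h' =>
      h13.mem_toFinset.2 ⟨h, h'⟩).trans
      (Finset.sum_congr rfl fun V hV => hk V (h13.mem_toFinset.1 hV).1)
  have h16 : 0 < ∑ V ∈ h13.toFinset, k V := Finset.sum_pos' (fun _ _ => Nat.zero_le _)
    ⟨W, h13.mem_toFinset.2 ⟨hW, h14⟩, Nat.pos_of_ne_zero fun h => h14 (by
      rw [hk W hW, h, Nat.cast_zero])⟩
  refine ⟨(∑ V ∈ h13.toFinset, k V : ℕ) / (deg θ : ℕ), by positivity, ?_⟩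
  have h17 : (deg θ : ℂ) ≠ 0 := by exact_mod_cast hθ.ne'
  rw [Complex.ofReal_div, Complex.ofReal_natCast, Complex.ofReal_natCast, ← h15, h1,
    mul_div_cancel_left₀ _ h17]

end Crest.Agent.X262.Num64
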