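import Crest.Agent.X262.Ends.Pl
import Crest.Agent.X262.Vb.Bas1
import Crest.Agent.X262.Vb10.Mob
import Crest.Agent.R273.FG_259

/-!
# Row 262, road B, ENDS (helper64), part 1: descent to the field of moduli, good reduction

* `dim_tow`, `dim_qf_le` : dimension counts;
* `mb_desc` : a reparametrised line is defined over its field of moduli;
* `on_red` : good reduction inside the target;  `on_iff_eqc`.
-/

set_option autoImplicit false
set_option linter.unusedSectionVars false

noncomputable section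

namespace Crest.Agent.X262.Num64

open Crest.Agent.X277 Crest.Agent.X277.BD Crest.Agent.X277.BD.Cyc Polynomial
open Crest.Agent.X262.Hb Crest.Agent.X262.Vb Crest.Agent.X262.Ends
open Crest.Agent.X262.Bub96 (hv Tr)
open Crest.Agent.X262.Bub96.Tr (dot)
open Crest.Agent.X262.Vb37 (hev)
open Crest.Agent.R273.FG_259 (essFiniteType_of_le)
open IntermediateField (adjoin)

section Dim

variable {k F E : Type} [Field k] [CharZero k] [Field F] [Field E] [Algebra k F] [Algebra k E]

theorem dim_tow (k F E : Type) [Field k] [CharZero k] [Field F] [CharZero F] [Field E]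
    [Algebra k F] [Algebra F E] [Algebra k E] [IsScalarTower k F E] [Algebra.EssFiniteType k F]
    [Algebra.EssFiniteType F E] [Algebra.EssFiniteType k E] : dim k E = dim k F + dim F E := by
  have h := trdeg_add_eq k F (A := E)
  rw [trdeg_eq_dim, trdeg_eq_dim, trdeg_eq_dim] at h
  exact_mod_cast h.symm

theorem dim_adjoin_le {ι : Type} [Fintype ι] (s : ι → F) :
    Algebra.EssFiniteType k (adjoin k (Set.range s)) ∧
      dim k (adjoin k (Set.range s)) ≤ Fintype.card ι := by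
  have h0 : Algebra.EssFiniteType k (adjoin k (Set.range s)) :=
    IntermediateField.essFiniteType_iff.2 (IntermediateField.fg_adjoin_of_finite (Set.finite_range s))
  let s' : ι → adjoin k (Set.range s) := fun i => ⟨s i, IntermediateField.subset_adjoin _ _ ⟨i, rfl⟩⟩
  have h1 : adjoin k (Set.range s') = ⊤ := by
    rw [← IntermediateField.lift_inj, IntermediateField.lift_adjoin, IntermediateField.lift_top,
      ← Set.range_comp]
    rfl
  have h2 : Algebra.IsAlgebraic (Algebra.adjoin k (Set.range s')) (adjoin k (Set.range s)) := by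
    rw [← IntermediateField.isAlgebraic_adjoin_iff_top, h1]
    infer_instance
  have h3 := (Algebra.IsAlgebraic.trdeg_le_cardinalMk k (Set.range s')).trans Cardinal.mk_range_le
  rw [trdeg_eq_dim, Cardinal.mk_fintype] at h3
  exact ⟨h0, by exact_mod_cast h3⟩

theorem dim_of_top [Algebra.EssFiniteType k F] {S : IntermediateField k F} (h : S = ⊤) :
    dim k S = dim k F := by
  subst h
  have := essFiniteType_of_le (⊤ : IntermediateField k F)
  exact (dim_le (IntermediateField.val _)).antisymm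
    (dim_le (IntermediateField.topEquiv (F := k) (E := F)).symm.toAlgHom)

end Dim

variable {J : Type} [Fintype J] [DecidableEq J] {io : J → Type} [∀ j, Fintype (io j)]
  [∀ j, DecidableEq (io j)] {A : Type} [Fintype A] {K E L I : Type} [Field K] [Algebra ℂ K]
  [Field E] [Algebra ℂ E] [Field L] [Algebra ℂ L] [Fintype I] {T : Tgt io A} {d ν : J → ℕ}
  {j₁ : J}

/-- the ratios of a vector of an extended subspace -/
theorem dim_qf_le [CharZero K] [Algebra K E] [IsScalarTower ℂ K E] [Algebra.EssFiniteType K E]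
    {P : Type} [Fintype P] {U : Submodule K (P → K)} {u : P → E}
    (hu : u ∈ mapS (IsScalarTower.toAlgHom ℂ K E) U) (h0 : u ≠ 0) :
    dim K (qf K u) + 1 ≤ Module.finrank K U := by
  classical
  obtain ⟨v, -, hv⟩ := Tree87.exists_basis_fun U
  rw [← hv, Tree87.mapS_span, Submodule.mem_span_range_iff_exists_fun] at hu
  obtain ⟨l, hl⟩ := hu
  obtain ⟨k₀, hk⟩ : ∃ k, l k ≠ 0 := by
    by_contra! h
    exact h0 (by simp [← hl, h])
  obtain ⟨h1, h2⟩ := dim_adjoin_le (k := K) fun k : {k // k ≠ k₀} => l k / l k₀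
  have h3 : ∀ x, u x / l k₀ ∈ adjoin K (Set.range fun k : {k // k ≠ k₀} => l k / l k₀) := fun x => by
    rw [← hl, Finset.sum_apply, Finset.sum_div]
    refine sum_mem fun k _ => ?_
    rw [Pi.smul_apply, smul_eq_mul, mul_div_right_comm]
    refine mul_mem ?_ (IntermediateField.algebraMap_mem _ _)
    by_cases h : k = k₀
    · rw [h, div_self hk]
      exact one_mem _
    · exact IntermediateField.subset_adjoin _ _ ⟨⟨k, h⟩, rfl⟩
  have h4 : qf K u ≤ adjoin K (Set.range fun k : {k // k ≠ k₀} => l k / l k₀) :=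
    IntermediateField.adjoin_le_iff.2 (by
      rintro _ ⟨i, j, rfl⟩
      rw [← div_div_div_cancel_right₀ hk]
      exact div_mem (h3 j) (h3 i))
  have := essFiniteType_of_le (qf K u)
  have h5 := (dim_le (IntermediateField.inclusion h4)).trans h2
  rw [Fintype.card_subtype_compl, Fintype.card_subtype_eq, Fintype.card_fin] at h5
  have := k₀.pos
  omega

theorem coeff_mob_one (μ : Matrix (Fin 2) (Fin 2) E) (h : E[X]) (l : Fin 2) :
    (mob 1 μ h).coeff (1 - l) = h.coeff 1 * μ 0 l + h.coeff 0 * μ 1 l := by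
  fin_cases l <;> simp [mob, Finset.sum_range_succ, mul_add, add_comm, coeff_C_mul, coeff_mul_X,
    coeff_C, coeff_X]

/-- **descent to the field of moduli** -/
theorem mb_desc {f : (j : J) → io j → K[X]} (hL : Line T d ν j₁ f) {g : (j : J) → io j → E[X]}
    (h1 : ∀ j, ∃ i l, (g j i).coeff l = 1) (h : Mb d f g) :
    ∃ g₀ : (j : J) → io j → (cfl g)[X], mpf (algebraMap (cfl g) E) g₀ = g ∧ Mb d f g₀ := by
  have := Vb37.inf_of_alg E
  obtain ⟨β, μ, c, hμ, hc, e⟩ := h
  have h2 : ∀ j i l, (g j i).coeff l ∈ cfl g := fun j i l => by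
    obtain ⟨i', l', h⟩ := h1 j
    exact IntermediateField.subset_adjoin _ _ ⟨j, i, i', l, l', by rw [h, div_one]⟩
  have h3 : ∀ x, β x ∈ cfl g := fun x => by
    refine (show bas ν (fun j i => (f j i).coeff 0) ≤ (cfl g).comap β from
      IntermediateField.adjoin_le_iff.2 ?_) (hL.gen ▸ IntermediateField.mem_top)
    rintro _ ⟨j, i, i', hj, rfl⟩
    have h4 : ∀ i, (g j i).coeff 0 = c j * β ((f j i).coeff 0) := fun i => by
      rw [e, hL.zero j hj]
      simp [mob]
    change β _ ∈ cfl g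
    rw [map_div₀, ← mul_div_mul_left _ _ (hc j), ← h4, ← h4]
    exact div_mem (h2 _ _ _) (h2 _ _ _)
  have h4 : ∀ k l, c j₁ * μ k l ∈ cfl g := fun k l => by
    obtain ⟨i, hi⟩ := hL.cp.2.1 j₁
    obtain ⟨i', hi'⟩ := Vb37.cp_hv hL.cp j₁ (some (-(f j₁ i).coeff 0 / (f j₁ i).coeff 1))
    have h5 := hL.cp.1 j₁ i'
    rw [hL.one] at hi h5
    rw [hv, eval_eq_sum_range' (Nat.lt_succ_of_le h5)] at hi'
    have h6 : β ((f j₁ i).coeff 1 * (f j₁ i').coeff 0 - (f j₁ i).coeff 0 * (f j₁ i').coeff 1) ≠ 0 :=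
      (map_ne_zero β).2 fun h0 => hi' (by
        simp only [Finset.sum_range_succ, Finset.sum_range_zero]
        field_simp
        linear_combination h0)
    have h7 : ∀ i, (g j₁ i).coeff (1 - l) =
        c j₁ * (β ((f j₁ i).coeff 1) * μ 0 l + β ((f j₁ i).coeff 0) * μ 1 l) := fun i => by
      rw [e, hL.one, coeff_C_mul, coeff_mob_one, coeff_map, coeff_map]
      rfl
    rw [← mul_div_cancel_left₀ (c j₁ * μ k l) h6]
    refine div_mem ?_ (h3 _)
    rw [map_sub, map_mul, map_mul]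
    fin_cases k
    · convert sub_mem (mul_mem (h3 ((f j₁ i').coeff 0)) (h2 j₁ i (1 - l)))
        (mul_mem (h3 ((f j₁ i).coeff 0)) (h2 j₁ i' (1 - l))) using 1
      rw [h7, h7]
      simp only [Fin.zero_eta]
      ring
    · convert sub_mem (mul_mem (h3 ((f j₁ i).coeff 1)) (h2 j₁ i' (1 - l)))
        (mul_mem (h3 ((f j₁ i').coeff 1)) (h2 j₁ i (1 - l))) using 1
      rw [h7, h7]
      simp only [Fin.mk_one]
      ring
  let β' : K →ₐ[ℂ] cfl g := β.codRestrict (cfl g).toSubalgebra h3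
  let μ' : Matrix (Fin 2) (Fin 2) (cfl g) := Matrix.of fun k l => ⟨_, h4 k l⟩
  have h5 : μ'.map (algebraMap (cfl g) E) = c j₁ • μ := rfl
  have h6 : ∀ j i, g j i = C (c j / c j₁ ^ d j) *
      (mob (d j) μ' ((f j i).map (β' : K →+* cfl g))).map (algebraMap (cfl g) E) := fun j i => by
    rw [Vb37.mob_map, h5, Vb37.mob_smul, ← mul_assoc, ← C_mul,
      div_mul_cancel₀ _ (pow_ne_zero _ (hc j₁)), Polynomial.map_map, e]
    rfl
  have h7 : ∀ j, c j / c j₁ ^ d j ∈ cfl g := fun j => by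
    obtain ⟨i, l, h⟩ := h1 j
    rw [h6, coeff_C_mul, coeff_map] at h
    rw [eq_inv_of_mul_eq_one_left h]
    exact inv_mem (Subtype.property _)
  refine ⟨fun j i => C ⟨_, h7 j⟩ * mob (d j) μ' ((f j i).map (β' : K →+* cfl g)),
    _root_.funext fun j => _root_.funext fun i => ?_, β', μ', fun j => ⟨_, h7 j⟩, fun h0 => ?_,
    fun j h0 => div_ne_zero (hc j) (pow_ne_zero _ (hc j₁)) (congrArg Subtype.val h0),
    fun _ _ => rfl⟩
  · rw [h6 j i, mpf, Polynomial.map_mul, map_C]
    rfl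
  · have h8 := (algebraMap (cfl g) E).map_det μ'
    rw [h0, map_zero, RingHom.mapMatrix_apply, h5, Matrix.det_smul] at h8
    exact mul_ne_zero (pow_ne_zero _ (hc j₁)) hμ h8.symm

theorem cfl_eq_top {g : (j : J) → io j → E[X]} {g₀ : (j : J) → io j → (cfl g)[X]}
    (h : mpf (algebraMap (cfl g) E) g₀ = g) : cfl g₀ = ⊤ := by
  have h1 : ∀ j i l, ((g₀ j i).coeff l : E) = (g j i).coeff l := fun j i l =>
    (coeff_map _ l).symm.trans (congrArg (coeff · l) (congrFun (congrFun h j) i))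
  rw [← IntermediateField.lift_inj, IntermediateField.lift_top]
  refine (IntermediateField.lift_adjoin _ _ _).trans (congrArg _ (Set.ext fun t => ⟨?_, ?_⟩))
  · rintro ⟨_, ⟨j, i, i', l, l', rfl⟩, rfl⟩
    exact ⟨j, i, i', l, l', by rw [← h1, ← h1]; rfl⟩
  · rintro ⟨j, i, i', l, l', rfl⟩
    exact ⟨_, ⟨j, i, i', l, l', rfl⟩, by rw [← h1, ← h1]; rfl⟩

theorem pf_pt {g : (j : J) → io j → E[X]} (h : Cp d g) {F : MvPolynomial (Vr io) ℂ} {κ : J → ℕ}
    (hF : MH F κ) :
    (pf g F).natDegree ≤ dot κ d ∧ ∀ t, hv (dot κ d) (pf g F) t = pv (pt d g t) F :=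
  have h := Tree87.isSec_sb hF (t := Tr.leaf d g) (Bub96.cop_of_cp h)
  ⟨h.1, fun t => h.2 ((), t)⟩

theorem pf_scf (s : J → E) (g : (j : J) → io j → E[X]) {F : MvPolynomial (Vr io) ℂ} {κ : J → ℕ}
    (hF : MH F κ) : pf (scf s g) F = C (∏ j, s j ^ κ j) * pf g F := by
  rw [map_prod]
  simp only [map_pow]
  exact Node22.mh_aeval hF (fun j => C (s j)) fun v => g v.1 v.2

theorem GR.ne {p : Pl ℂ L ℂ E} {g : (j : J) → io j → L[X]} {s : J → L}
    {g' : (j : J) → io j → E[X]} (h : GR p g s g') (j : J) : s j ≠ 0 := fun h0 => by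
  obtain ⟨i, l, h1⟩ := h.one j
  rw [← h.red, h0, zero_mul, Pl.r_zero] at h1
  exact zero_ne_one h1

/-- norming points lie on the target if and only if the curve does -/
theorem on_iff_eqc {η : Dat io d I L} {N : ℕ} (hN : η.NrmUp N) (hk : ∀ a j, T.k a j ≤ N)
    {s : J → L} (hs : ∀ j, s j ≠ 0) : η.cfg.On T ↔ eqc T d (scf s η.f) = 0 := by
  have h1 := fun a => pf_pt η.cp (T.hom a)
  refine ⟨fun h => _root_.funext fun x => ?_, fun h q a => ?_⟩
  · rw [eqc, pf_scf s _ (T.hom _),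
      Bub96.nrm_inj (hN _ (hk x.1)) (h1 x.1).1 fun q => ((h1 _).2 _).trans (h q x.1)]
    simp
  · have h2 : pf η.f (T.F a) = 0 := Polynomial.ext fun l => by
      by_cases hl : l ≤ dot (T.k a) d
      · have h3 := congrFun h ⟨a, ⟨l, Nat.lt_succ_of_le hl⟩⟩
        rw [eqc, pf_scf s _ (T.hom _), coeff_C_mul] at h3
        exact (mul_eq_zero.1 h3).resolve_left
          (Finset.prod_ne_zero_iff.2 fun j _ => pow_ne_zero _ (hs j))
      · exact coeff_eq_zero_of_natDegree_lt ((h1 a).1.trans_lt (not_le.1 hl))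
    exact ((h1 a).2 (η.x q)).symm.trans (by rw [h2, Bub96.hv_zero])

theorem exists_prim (V : RZ ℂ L) (t : Option L) : ∃ (u : L) (w : Fin 2 → L), u ≠ 0 ∧
    w = u • hx t ∧ (∀ i, w i ∈ V.1) ∧ ∃ i, w i = 1 := by
  obtain ⟨i, h1, h2⟩ := Tree87.exists_prim V (Vb37.hx_ne t)
  exact ⟨_, _, inv_ne_zero h1, rfl, h2, i, inv_mul_cancel₀ h1⟩

/-- **good reduction inside the target** -/
theorem on_red {η : Dat io d I L} {p : LP L E} {s : J → L} {g : (j : J) → io j → E[X]}
    (h : GR p.toPl η.f s g) (hg : Cp d g) (hO : ∀ a, pf g (T.F a) = 0) :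
    (η.cfg.red p.toPl).On T := by
  choose u w hu hw h1 h2 using fun q => exists_prim p.V (η.x q)
  have h3 : ∀ q j i, (η.cfg.gau fun q j => s j * u q ^ d j).y q j i ∈ p.V.1 ∧
      p.r ((η.cfg.gau fun q j => s j * u q ^ d j).y q j i) =
        hev (d j) (g j i) fun l => p.r (w q l) := fun q j i => by
    have e : (η.cfg.gau fun q j => s j * u q ^ d j).y q j i = ∑ l ∈ Finset.range (d j + 1),
        s j * (η.f j i).coeff l * w q 0 ^ l * w q 1 ^ (d j - l) := by
      change s j * u q ^ d j * hv (d j) (η.f j i) (η.x q) = _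
      rw [← Vb37.hev_hx (η.cp.1 j i), mul_assoc, ← Vb37.hev_smul, ← hw, hev, Finset.mul_sum]
      simp only [mul_assoc]
    have h4 := fun l => mul_mem (h.mem j i l) (pow_mem (h1 q 0) l)
    have h5 := fun l => mul_mem (h4 l) (pow_mem (h1 q 1) (d j - l))
    rw [e, Tree87.r_sum _ fun l _ => h5 l]
    refine ⟨sum_mem fun l _ => h5 l, Finset.sum_congr rfl fun l _ => ?_⟩
    rw [Pl.r_mul (h4 l) (pow_mem (h1 q 1) _), Pl.r_mul (h.mem j i l) (pow_mem (h1 q 0) _), h.red,
      Pl.r_pow (h1 q 0), Pl.r_pow (h1 q 1)]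
  have h4 : ∀ q, (fun l => p.r (w q l)) ≠ 0 := fun q h0 => by
    obtain ⟨l, hl⟩ := h2 q
    have h5 := congrFun h0 l
    rw [hl, Pl.r_one] at h5
    exact one_ne_zero h5
  refine (((Cfg.geq_gau η.cfg fun q j => mul_ne_zero (GR.ne h j) (pow_ne_zero _ (hu q))).red_red0
    fun q j => ⟨fun i => (h3 q j i).1, (Vb37.cp_hev hg j (h4 q)).imp fun i hi =>
      Pl.r_ne_zero_iff.1 ((h3 q j i).2 ▸ hi)⟩).on T).1 fun q a => ?_
  obtain ⟨v, t, -, e⟩ := Vb37.exists_hx (h4 q)
  have h5 : ((η.cfg.gau fun q j => s j * u q ^ d j).red0 p.toPl).y q =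
      Node22.scl (fun j => v ^ d j) (pt d g t) := _root_.funext fun j => _root_.funext fun i =>
    (h3 q j i).2.trans (by rw [e, Vb37.hev_smul, Vb37.hev_hx (hg.1 j i)]; rfl)
  rw [h5, Node22.pv_scl (T.hom a), ← (pf_pt hg (T.hom a)).2, hO, Bub96.hv_zero, mul_zero]

end Crest.Agent.X262.Num64
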